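import Vale.Agent.P181.MD.Spec

/-!
# P181, MD: `SysStmt` from `TestStmt` (the tests of every class, transported)
-/

set_option autoImplicit false

namespace Vale.Agent.P181.MD.H337

open Finset Vale.Agent.P181 Vale.Agent.P181.H280 Vale.Agent.P181.H463 Vale.Agent.P181.H59
  Vale.Agent.P181.TS

theorem two_others {m : ℕ} (hm : 3 ≤ m) (i : Fin m) :
    ∃ κ : Fin 2 → Fin m, κ 0 ≠ i ∧ κ 1 ≠ i ∧ κ 0 ≠ κ 1 := by
  have h : 1 < ((univ : Finset (Fin m)).erase i).card := by
    rw [card_erase_of_mem (mem_univ i), card_univ, Fintype.card_fin]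
    omega
  obtain ⟨a, ha, b, hb, hab⟩ := Finset.one_lt_card.mp h
  refine ⟨fun j => if j = 0 then a else b, ?_, ?_, ?_⟩
  · simpa using (mem_erase.mp ha).1
  · simpa using (mem_erase.mp hb).1
  · simpa using hab

theorem sys : TestStmt → SysStmt := by
  intro hT b m e cl hm he hcl
  classical
  have hcard : ∀ i : Fin m, Fintype.card {u : Fin b // cl u = i} = (cls cl i).card := by
    intro i
    rw [Fintype.card_subtype]
    rfl
  let ε : ∀ i : Fin m, {u : Fin b // cl u = i} ≃ Fin (cls cl i).card :=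
    fun i => Fintype.equivFinOfCardEq (hcard i)
  have hs : ∀ i : Fin m, 400 ≤ (cls cl i).card := fun i => he.trans (hcl i).1
  choose P f E hP hfib hne hdeg hrig using fun i : Fin m => hT (cls cl i).card (hs i)
  choose κ hκ0 hκ1 hκ using fun i : Fin m => two_others hm i
  have hκi : ∀ (i : Fin m) (c : Fin 2), κ i c ≠ i := by
    intro i c
    fin_cases c
    · exact hκ0 i
    · exact hκ1 i
  have hmpos : 0 < m := by omega
  obtain ⟨i0, -, hi0⟩ := Finset.exists_max_image (univ : Finset (Fin m)) P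
    ⟨⟨0, hmpos⟩, mem_univ _⟩
  have hPmax : ∀ i, P i ≤ P i0 := fun i => hi0 i (mem_univ i)
  -- which colouring is used at `k` by the letters of the class `i`
  let w : Fin m → Fin m → Fin 2 := fun i k => if k = κ i 1 then 1 else 0
  have hw : ∀ (i : Fin m) (c : Fin 2), w i (κ i c) = c := by
    intro i c
    fin_cases c
    · show (if κ i 0 = κ i 1 then (1 : Fin 2) else 0) = 0
      rw [if_neg (hκ i)]
    · show (if κ i 1 = κ i 1 then (1 : Fin 2) else 0) = 1
      rw [if_pos rfl]
  let y : Fin b → Fin m → ℕ := fun u k => (f (cl u) (w (cl u) k) (ε (cl u) ⟨u, rfl⟩) : ℕ)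
  have hy : ∀ (i : Fin m) (u : Fin b) (h : cl u = i) (k : Fin m),
      y u k = (f i (w i k) (ε i ⟨u, h⟩) : ℕ) := by
    intro i u h k
    subst h
    rfl
  -- the test which belongs to an element of `E i c`
  let mk : ∀ i : Fin m, Fin 2 → Fin (cls cl i).card × Fin (cls cl i).card → Tst b m :=
    fun i c x => (i, κ i c, ((ε i).symm x.1 : {u // cl u = i}).1,
      ((ε i).symm x.2 : {u // cl u = i}).1)
  let T : Finset (Tst b m) := (univ : Finset (Fin m)).biUnion fun i =>
    (univ : Finset (Fin 2)).biUnion fun c => (E i c).image (mk i c)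
  have hmem : ∀ t, t ∈ T ↔ ∃ i c, ∃ x ∈ E i c, mk i c x = t := by
    intro t
    simp only [T, mem_biUnion, mem_univ, true_and, mem_image]
  have hcls : ∀ (i : Fin m) (z : Fin (cls cl i).card), cl ((ε i).symm z).1 = i :=
    fun i z => ((ε i).symm z).2
  have hysymm : ∀ (i : Fin m) (z : Fin (cls cl i).card) (k : Fin m),
      y ((ε i).symm z).1 k = (f i (w i k) z : ℕ) := by
    intro i z k
    rw [hy i _ (hcls i z) k]
    have : (⟨((ε i).symm z).1, hcls i z⟩ : {u // cl u = i}) = (ε i).symm z := Subtype.ext rfl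
    rw [this, Equiv.apply_symm_apply]
  have hdegT : ∀ u, (T.filter fun t => t.2.2.1 = u ∨ t.2.2.2 = u).card ≤ 8 * P i0 := by
    intro u
    have hsub : (T.filter fun t => t.2.2.1 = u ∨ t.2.2.2 = u) ⊆
        (univ : Finset (Fin 2)).biUnion fun c =>
          ((E (cl u) c).filter fun x => x.1 = ε (cl u) ⟨u, rfl⟩ ∨
            x.2 = ε (cl u) ⟨u, rfl⟩).image (mk (cl u) c) := by
      intro t ht
      obtain ⟨ht, htu⟩ := mem_filter.mp ht
      obtain ⟨i, c, x, hx, rfl⟩ := (hmem t).mp ht
      have hi : cl u = i := by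
        rcases htu with h | h
        · rw [← h]; exact hcls i x.1
        · rw [← h]; exact hcls i x.2
      subst hi
      refine mem_biUnion.mpr ⟨c, mem_univ c, mem_image.mpr ⟨x, mem_filter.mpr ⟨hx, ?_⟩, rfl⟩⟩
      rcases htu with h | h
      · left
        have h1 : (ε (cl u)).symm x.1 = ⟨u, rfl⟩ := Subtype.ext h
        rw [← h1, Equiv.apply_symm_apply]
      · right
        have h1 : (ε (cl u)).symm x.2 = ⟨u, rfl⟩ := Subtype.ext h
        rw [← h1, Equiv.apply_symm_apply]
    calc (T.filter fun t => t.2.2.1 = u ∨ t.2.2.2 = u).card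
        ≤ _ := card_le_card hsub
      _ ≤ ∑ c : Fin 2, (((E (cl u) c).filter fun x => x.1 = ε (cl u) ⟨u, rfl⟩ ∨
            x.2 = ε (cl u) ⟨u, rfl⟩).image (mk (cl u) c)).card := card_biUnion_le
      _ ≤ ∑ _c : Fin 2, 4 * P (cl u) :=
          sum_le_sum fun c _ => card_image_le.trans (hdeg (cl u) c _)
      _ = 8 * P (cl u) := by
          rw [sum_const, card_univ, Fintype.card_fin, smul_eq_mul]; ring
      _ ≤ 8 * P i0 := Nat.mul_le_mul_left _ (hPmax _)
  refine ⟨P i0, y, T, ?_, ?_, hdegT, ?_, ?_, ?_⟩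
  · exact (hP i0).trans (Nat.mul_le_mul_left _ (hcl i0).2)
  · intro t ht
    obtain ⟨i, c, x, hx, rfl⟩ := (hmem t).mp ht
    have hxne : f i c x.1 ≠ f i c x.2 := hne i c x hx
    refine ⟨hcls i x.1, hcls i x.2, ?_, hκi i c, ?_⟩
    · intro h
      have h1 : (ε i).symm x.1 = (ε i).symm x.2 := Subtype.ext h
      exact hxne (by rw [(ε i).symm.injective h1])
    · show y ((ε i).symm x.1).1 (κ i c) ≠ y ((ε i).symm x.2).1 (κ i c)
      rw [hysymm, hysymm, hw]
      exact fun h => hxne (Fin.ext h)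
  · have h1 := Finset.card_le_mul_card_image (f := fun t : Tst b m => t.2.2.1) T (8 * P i0) (by
      intro a _
      refine (card_le_card ?_).trans (hdegT a)
      intro t ht
      obtain ⟨h1, h2⟩ := mem_filter.mp ht
      exact mem_filter.mpr ⟨h1, Or.inl h2⟩)
    refine h1.trans (Nat.mul_le_mul_left _ ?_)
    have h2 := card_le_univ (T.image fun t : Tst b m => t.2.2.1)
    rwa [Fintype.card_fin] at h2
  · intro u k _
    have hle : (univ.filter fun v => cl v = cl u ∧ y v k = y u k).card ≤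
        (univ.filter fun z => f (cl u) (w (cl u) k) z =
          f (cl u) (w (cl u) k) (ε (cl u) ⟨u, rfl⟩)).card := by
      refine Finset.card_le_card_of_surjOn
        (fun z => ((ε (cl u)).symm z).1) ?_
      intro v hv
      obtain ⟨-, hv1, hv2⟩ := mem_filter.mp (Finset.mem_coe.mp hv)
      refine ⟨ε (cl u) ⟨v, hv1⟩, ?_, ?_⟩
      · rw [Finset.mem_coe, mem_filter]
        refine ⟨mem_univ _, Fin.ext ?_⟩
        rw [hy (cl u) v hv1 k, hy (cl u) u rfl k] at hv2
        exact hv2
      · show ((ε (cl u)).symm (ε (cl u) ⟨v, hv1⟩)).1 = v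
        rw [Equiv.symm_apply_apply]
    exact hle.trans ((hfib (cl u) _ _).trans (hPmax _))
  · intro ρ hρ hρT
    have hone : ∀ (i : Fin m) (u : Fin b) (h : cl u = i), ρ u = u := by
      intro i
      let σ : Equiv.Perm {u : Fin b // cl u = i} := ρ.subtypePerm (fun u => by
        show cl (ρ u) = i ↔ cl u = i
        rw [hρ u])
      have hσ : ∀ z : {u : Fin b // cl u = i}, (σ z).1 = ρ z.1 := fun z => rfl
      have h1 := hrig i (((ε i).symm.trans σ).trans (ε i)) (by
        intro c x hx h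
        have h2 := hρT (mk i c x) ((hmem _).mpr ⟨i, c, x, hx, rfl⟩)
        apply h2
        show y (ρ ((ε i).symm x.1).1) (κ i c) = y (ρ ((ε i).symm x.2).1) (κ i c)
        rw [← hσ, ← hσ]
        rw [hy i _ (σ ((ε i).symm x.1)).2 (κ i c), hy i _ (σ ((ε i).symm x.2)).2 (κ i c), hw]
        exact congrArg Fin.val h)
      intro u h
      have h2 := congrArg (fun τ : Equiv.Perm (Fin (cls cl i).card) => τ (ε i ⟨u, h⟩)) h1
      have h3 : ε i (σ ⟨u, h⟩) = ε i ⟨u, h⟩ := by
        simpa using h2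
      have h4 := (ε i).injective h3
      have h5 := congrArg Subtype.val h4
      exact h5
    ext u
    rw [hone (cl u) u rfl]
    rfl

end Vale.Agent.P181.MD.H337
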